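import Vale.Agent.P110.Delay.Spectrum

/-!
P110: the group delay of a nearly flat Littlewood polynomial has no finitely many narrow branches.
-/

namespace Vale.Agent.P110.Delay

open Finset Complex Polynomial Vale.Agent.P110.Window

/-- A shift by `Q` changes a nearly flat sign sequence at a positive proportion of places. -/
theorem shift_energy {ζ : ℂ} {N : ℕ} (hζ : IsPrimitiveRoot ζ N) {h : ℕ → ℝ} {Q : ℕ} (hQ : 0 < Q)
    (hQN : Q < N) (hfl : ∀ s, Real.sqrt N * (3 / 4) ≤ ‖pol h N (ζ ^ s)‖) :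
    (N : ℝ) ≤ ∑ k ∈ range N, (h ((k + Q) % N) - h k) ^ 2 := by
  have hN : 0 < N := hQ.trans hQN
  have hNr : (0 : ℝ) < N := Nat.cast_pos.2 hN
  have hone : ∀ s, (ζ ^ s) ^ N = 1 := fun s => by
    rw [← pow_mul, mul_comm, pow_mul, hζ.pow_eq_one, one_pow]
  have h1 := parseval hζ hN fun i => if i = Q then (1 : ℂ) else if i = 0 then -1 else 0
  have h2 : ∀ s, ∑ i ∈ range N, (if i = Q then (1 : ℂ) else if i = 0 then -1 else 0) * (ζ ^ s) ^ i =
      (ζ ^ s) ^ Q - 1 := fun s => by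
    rw [← sum_subset (s₁ := {Q, 0}) (by
        intro i hi
        rcases Finset.mem_insert.1 hi with rfl | hi
        · exact mem_range.2 hQN
        · rw [Finset.mem_singleton.1 hi]; exact mem_range.2 hN)
      (fun i _ hi => by
        simp only [Finset.mem_insert, Finset.mem_singleton, not_or] at hi
        simp [hi.1, hi.2]), sum_pair hQ.ne']
    simp [hQ.ne, sub_eq_add_neg]
  simp only [h2] at h1
  have h3 : ∑ i ∈ range N, ‖(if i = Q then (1 : ℂ) else if i = 0 then -1 else 0)‖ ^ 2 = 2 := by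
    rw [← sum_subset (s₁ := {Q, 0}) (by
        intro i hi
        rcases Finset.mem_insert.1 hi with rfl | hi
        · exact mem_range.2 hQN
        · rw [Finset.mem_singleton.1 hi]; exact mem_range.2 hN)
      (fun i _ hi => by
        simp only [Finset.mem_insert, Finset.mem_singleton, not_or] at hi
        simp [hi.1, hi.2]), sum_pair hQ.ne']
    simp [hQ.ne]
    norm_num
  rw [h3] at h1
  set c : ℕ → ℂ := fun k => (h ((k + Q) % N) : ℂ) - h k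
  have h4 : ∀ s, ‖(ζ ^ s) ^ Q - 1‖ ^ 2 * (Real.sqrt N * (3 / 4)) ^ 2 ≤
      ‖∑ k ∈ range N, c k * (ζ ^ s) ^ k‖ ^ 2 := by
    intro s
    set z := ζ ^ s
    have hz1 : ‖z‖ = 1 := by rw [norm_pow, hζ.norm'_eq_one hN.ne', one_pow]
    have e : (∑ k ∈ range N, c k * z ^ k) * z ^ Q = pol h N z * (1 - z ^ Q) := by
      simp only [c, sub_mul, sum_sub_distrib]
      rw [sum_shift hN (hone s) (fun j => (h j : ℂ)) Q, pol]
      ring
    have e' := congrArg norm e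
    rw [norm_mul, norm_mul, norm_pow, hz1, one_pow, mul_one, norm_sub_rev] at e'
    rw [e', mul_pow ‖pol h N z‖, mul_comm (‖pol h N z‖ ^ 2)]
    exact mul_le_mul_of_nonneg_left (pow_le_pow_left₀ (by positivity) (hfl s) 2) (sq_nonneg _)
  have h5 := sum_le_sum fun s (_ : s ∈ range N) => h4 s
  rw [← sum_mul, h1, parseval hζ hN] at h5
  have h6 : ∀ k, ‖c k‖ ^ 2 = (h ((k + Q) % N) - h k) ^ 2 := fun k => by
    simp only [c]
    rw [← ofReal_sub, Complex.norm_real, Real.norm_eq_abs, sq_abs]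
  simp only [h6] at h5
  rw [mul_pow, Real.sq_sqrt hNr.le] at h5
  nlinarith

theorem tent_pos {c r x : ℝ} (hr : 0 < r) (h4 : |x - c| ≤ 4) (h : 0 < tent c r x) : |x - c| < r := by
  by_contra hle
  rw [tent_eq_zero hr h4 (not_lt.1 hle)] at h
  exact lt_irrefl _ h

theorem sum_tent_le {r : ℝ} (hr : 0 < r) (_hr1 : r ≤ 1) {τ : ℝ} (h0 : 0 ≤ τ) (h1 : τ ≤ 1) {M : ℕ}
    (hM : (M : ℝ) * r ≤ 2) : ∑ j ∈ range (M + 1), tent ((j : ℝ) * r) r τ ≤ 2 := by
  classical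
  have hs : ∀ j ∈ range (M + 1), j ∉ ({⌊τ / r⌋₊, ⌊τ / r⌋₊ + 1} : Finset ℕ) →
      tent ((j : ℝ) * r) r τ = 0 := by
    intro j hj hj'
    have hjM : (j : ℝ) ≤ M := Nat.cast_le.2 (Nat.lt_succ_iff.1 (mem_range.1 hj))
    have hjr := mul_le_mul_of_nonneg_right hjM hr.le
    have hj0 : 0 ≤ (j : ℝ) * r := by positivity
    have h4 : |τ - j * r| ≤ 4 := abs_le.2 ⟨by linarith, by linarith⟩
    refine tent_eq_zero hr h4 ?_
    by_contra hlt
    rw [not_le, abs_lt] at hlt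
    simp only [Finset.mem_insert, Finset.mem_singleton, not_or] at hj'
    have a1 := Nat.floor_le (show 0 ≤ τ / r by positivity)
    have a2 := Nat.lt_floor_add_one (τ / r)
    rw [le_div_iff₀ hr] at a1
    rw [div_lt_iff₀ hr] at a2
    have b1 : (⌊τ / r⌋₊ : ℝ) < (j : ℝ) + 1 := by nlinarith
    have b2 : (j : ℝ) < (⌊τ / r⌋₊ : ℝ) + 2 := by nlinarith
    have c1 : ⌊τ / r⌋₊ < j + 1 := by exact_mod_cast b1
    have c2 : j < ⌊τ / r⌋₊ + 2 := by exact_mod_cast b2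
    omega
  calc ∑ j ∈ range (M + 1), tent ((j : ℝ) * r) r τ
      ≤ ∑ j ∈ range (M + 1) ∪ {⌊τ / r⌋₊, ⌊τ / r⌋₊ + 1}, tent ((j : ℝ) * r) r τ :=
        sum_le_sum_of_subset_of_nonneg subset_union_left fun _ _ _ => tent_nonneg _ _ _
    _ = ∑ j ∈ ({⌊τ / r⌋₊, ⌊τ / r⌋₊ + 1} : Finset ℕ), tent ((j : ℝ) * r) r τ := by
        refine (sum_subset subset_union_right fun j hj hj' => hs j ?_ hj').symm
        rcases mem_union.1 hj with h | h
        · exact h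
        · exact absurd h hj'
    _ ≤ _ := by
        rw [sum_pair (by omega)]
        linarith [tent_le_one ((⌊τ / r⌋₊ : ℝ) * r) hr τ,
          tent_le_one (((⌊τ / r⌋₊ + 1 : ℕ) : ℝ) * r) hr τ]

/-- The residual at a place where the tent is large, against the filtered window. -/
theorem resid_sq_le {c r : ℝ} (hr : 0 < r) {h : ℕ → ℝ} {N : ℕ} (hh : ∀ k < N, |h k| = 1)
    {p : ℝ[X]} (hmon : p.Monic) {d : ℕ} (hdeg : p.natDegree = d) {D : ℝ} (hD : 0 ≤ D)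
    (hcoef : ∀ m, |p.coeff m| ≤ D) {i : ℕ} (hi : i + d < N)
    (hw : 1 / 4 ≤ tent c r ((i : ℝ) / N)) :
    resid (fun m => p.coeff m) d h i ^ 2 ≤ 32 * (‖∑ m ∈ range (d + 1), (p.coeff m : ℂ) *
      ((tent c r ((((i + m) % N : ℕ) : ℝ) / N) : ℂ) * h ((i + m) % N))‖ ^ 2 +
        (((d : ℝ) + 1) ^ 2 * D / r / N) ^ 2) := by
  have hNr : (0 : ℝ) < N := Nat.cast_pos.2 (by omega)
  set w := tent c r ((i : ℝ) / N) with hw_def
  set u : ℝ := ∑ m ∈ range (d + 1), p.coeff m * (tent c r (((i + m : ℕ) : ℝ) / N) * h (i + m)) with hu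
  have hVu : (∑ m ∈ range (d + 1), (p.coeff m : ℂ) *
      ((tent c r ((((i + m) % N : ℕ) : ℝ) / N) : ℂ) * h ((i + m) % N))) = (u : ℂ) := by
    rw [hu]
    simp only [ofReal_sum, ofReal_mul]
    refine sum_congr rfl fun m hm => ?_
    rw [Nat.mod_eq_of_lt (by have := mem_range.1 hm; omega)]
  set y := resid (fun m => p.coeff m) d h i with hy_def
  have hy : y = ∑ m ∈ range (d + 1), p.coeff m * h (i + m) := by
    have hlead : p.coeff d = 1 := by rw [← hdeg]; exact hmon.coeff_natDegree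
    rw [hy_def, sum_range_succ, hlead]
    simp only [resid]
    ring
  set E0 : ℝ := ((d : ℝ) + 1) ^ 2 * D / r / N with hE0
  have hdiff : |w * y - u| ≤ E0 := by
    rw [hy, hu, mul_sum, ← sum_sub_distrib]
    refine (abs_sum_le_sum_abs _ _).trans ?_
    have hterm : ∀ m ∈ range (d + 1), |w * (p.coeff m * h (i + m)) -
        p.coeff m * (tent c r (((i + m : ℕ) : ℝ) / N) * h (i + m))| ≤
        D * (((d : ℝ) + 1) / N / r) := by
      intro m hm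
      have hm' := mem_range.1 hm
      rw [show w * (p.coeff m * h (i + m)) -
          p.coeff m * (tent c r (((i + m : ℕ) : ℝ) / N) * h (i + m)) =
        p.coeff m * ((w - tent c r (((i + m : ℕ) : ℝ) / N)) * h (i + m)) by ring,
        abs_mul, abs_mul, hh (i + m) (by omega), mul_one]
      refine mul_le_mul (hcoef m) ((tent_lipschitz _ hr _ _).trans ?_) (abs_nonneg _) hD
      refine div_le_div_of_nonneg_right ?_ hr.le
      rw [← sub_div, abs_div, abs_of_pos hNr, Nat.cast_add, sub_add_cancel_left, abs_neg,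
        Nat.abs_cast]
      refine div_le_div_of_nonneg_right ?_ hNr.le
      exact_mod_cast Nat.le_of_lt_succ (hm'.trans (Nat.lt_succ_self _))
    refine (sum_le_sum hterm).trans (le_of_eq ?_)
    rw [sum_const, card_range, nsmul_eq_mul, hE0]
    push_cast
    ring
  rw [hVu, Complex.norm_real, Real.norm_eq_abs, sq_abs]
  have h1 : |y| ≤ 4 * (|u| + E0) := by
    have h2 : |w * y| ≤ |u| + E0 := by
      have := abs_sub_abs_le_abs_sub (w * y) u
      linarith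
    rw [abs_mul, abs_of_nonneg (tent_nonneg _ _ _)] at h2
    have := mul_le_mul_of_nonneg_right hw (abs_nonneg y)
    linarith
  have h3 : y ^ 2 ≤ (4 * (|u| + E0)) ^ 2 := by
    rw [← sq_abs y]; exact pow_le_pow_left₀ (abs_nonneg _) h1 2
  nlinarith [sq_nonneg (|u| - E0), sq_abs u]

/-- The residuals in one window. -/
theorem window_resid {c r : ℝ} (hr : 0 < r) {n : ℕ} (a : Fin n → ℂ) (lam : Fin n → ℝ) {ε : ℝ}
    (hε : 0 < ε) (happ : ∀ x : ℝ, ‖(tent c r x : ℂ) - expSum a lam x‖ ≤ ε) {ξ D ω : ℝ} (hD : 0 ≤ D)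
    (hω : 0 ≤ ω) (hξ : ξ * (∑ m, ‖a m‖ + 1) ≤ ε) (hξ0 : 0 ≤ ξ)
    {h : ℕ → ℝ} {N : ℕ} (hN : 0 < N) (hh : ∀ k < N, |h k| = 1)
    {ζ : ℂ} (hζ : IsPrimitiveRoot ζ N) {p : ℝ[X]} (hmon : p.Monic) {d : ℕ} (hdeg : p.natDegree = d)
    (hcoef : ∀ m, |p.coeff m| ≤ D) (hPz : ∀ s, ‖pol h N (ζ ^ s)‖ ≤ 2 * Real.sqrt N)
    (t : ℕ → ℝ) (hwave : ∀ s, ∀ m : Fin n,
      ‖pol h N (ζ ^ s * exp (I * (lam m / N : ℝ))) -
        pol h N (ζ ^ s) * exp (I * (lam m * t s : ℝ))‖ ≤ ξ * Real.sqrt N)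
    (hp : ∀ s, ‖aeval (ζ ^ s) p‖ ≤ D)
    (hp' : ∀ s, 0 < tent c r (t s) → ‖aeval (ζ ^ s) p‖ ≤ D * ω) :
    ∑ i ∈ (range (N - d)).filter (fun i : ℕ => 1 / 4 ≤ tent c r ((i : ℝ) / N)),
        resid (fun m => p.coeff m) d h i ^ 2 ≤
      32 * (3 * D ^ 2 * (4 * ω ^ 2 * (∑ s ∈ range N, tent c r (t s)) + 10 * ε ^ 2 * N) +
        N * (((d : ℝ) + 1) ^ 2 * D / r / N) ^ 2) := by
  have hest := window_estimate hr a lam hε happ hD hω hξ hξ0 hN hh hζ p hPz t hwave hp hp'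
  rw [hdeg] at hest
  refine (sum_le_sum fun i hi => ?_).trans
    (b := ∑ i ∈ (range (N - d)).filter (fun i : ℕ => 1 / 4 ≤ tent c r ((i : ℝ) / N)),
      32 * (‖∑ m ∈ range (d + 1), (p.coeff m : ℂ) *
        ((tent c r ((((i + m) % N : ℕ) : ℝ) / N) : ℂ) * h ((i + m) % N))‖ ^ 2 +
          (((d : ℝ) + 1) ^ 2 * D / r / N) ^ 2)) ?_
  · obtain ⟨hiN, hw⟩ := mem_filter.1 hi
    exact resid_sq_le hr hh hmon hdeg hD hcoef (by have := mem_range.1 hiN; omega) hw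
  rw [← mul_sum, sum_add_distrib, sum_const, nsmul_eq_mul]
  refine mul_le_mul_of_nonneg_left (add_le_add ?_ ?_) (by norm_num)
  · refine le_trans (sum_le_sum_of_subset_of_nonneg (t := range N) (fun i hi => ?_)
      fun _ _ _ => sq_nonneg _) ?_
    · have := mem_range.1 (mem_filter.1 hi).1
      exact mem_range.2 (by omega)
    · refine le_of_mul_le_mul_left (hest.trans (le_of_eq ?_)) (Nat.cast_pos.2 hN)
      ring
  · refine mul_le_mul_of_nonneg_right ?_ (sq_nonneg _)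
    have : ((range (N - d)).filter (fun i : ℕ => 1 / 4 ≤ tent c r ((i : ℝ) / N))).card ≤ N :=
      (card_filter_le _ _).trans (by rw [card_range]; omega)
    exact_mod_cast this

/-- Every place where the sequence is not `Q`-periodic is charged to a large residual nearby. -/
theorem shift_le_resid {d : ℕ} {r : ℝ} (hr : 0 < r) (hr1 : 8 * r ≤ 1) {M : ℕ}
    (hM : 1 ≤ (M : ℝ) * r) {h : ℕ → ℝ} {N : ℕ} (hh : ∀ k < N, |h k| = 1)
    (hbig : 16 * ((period d : ℝ) + (2 : ℝ) ^ d + d + 1) ≤ r * N) (c : ℕ → ℕ → ℝ) :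
    ∑ k ∈ range N, (h ((k + period d) % N) - h k) ^ 2 ≤
      4 * ((period d : ℝ) + (2 : ℝ) ^ d + d) + 4 * ((period d : ℝ) + (2 : ℝ) ^ d + 1) *
        ∑ j ∈ range (M + 1), ∑ i ∈ (range (N - d)).filter
          (fun i : ℕ => 1 / 4 ≤ tent ((j : ℝ) * r) r ((i : ℝ) / N)), resid (c j) d h i ^ 2 := by
  classical
  set Q := period d
  set P2 := 2 ^ d with hP2
  have hP2' : ((P2 : ℕ) : ℝ) = (2 : ℝ) ^ d := by rw [hP2]; push_cast; ring
  rw [← hP2'] at hbig ⊢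
  have hNpos : 0 < N := by
    rcases Nat.eq_zero_or_pos N with h0 | h0
    · exfalso; rw [h0] at hbig; simp at hbig
      linarith [Nat.cast_nonneg (α := ℝ) Q, Nat.cast_nonneg (α := ℝ) P2, Nat.cast_nonneg (α := ℝ) d]
    · exact h0
  have hNr : (0 : ℝ) < N := Nat.cast_pos.2 hNpos
  have hQPN : Q + P2 + d + 1 ≤ N := by
    have h0 : r * N ≤ 1 * N := mul_le_mul_of_nonneg_right (by linarith) hNr.le
    have : ((Q + P2 + d + 1 : ℕ) : ℝ) ≤ N := by
      push_cast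
      linarith [Nat.cast_nonneg (α := ℝ) Q, Nat.cast_nonneg (α := ℝ) P2, Nat.cast_nonneg (α := ℝ) d]
    exact_mod_cast this
  set S : ℕ → Finset ℕ := fun j =>
    (range (N - d)).filter fun i : ℕ => 1 / 4 ≤ tent ((j : ℝ) * r) r ((i : ℝ) / N)
  set y : ℕ → ℕ → ℝ := fun j i => resid (c j) d h i
  set Bad : ℕ → ℝ := fun i => ∑ j ∈ range (M + 1), if i ∈ S j then y j i ^ 2 else 0
  have hBad0 : ∀ i, 0 ≤ Bad i := fun i => Finset.sum_nonneg fun j _ => by split_ifs <;> positivity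
  have hmid : ∀ k, P2 ≤ k → k + Q + d < N →
      (h ((k + Q) % N) - h k) ^ 2 ≤ 4 * ∑ o ∈ range (P2 + Q + 1), Bad (k - P2 + o) := by
    intro k hk1 hk2
    rw [Nat.mod_eq_of_lt (by omega)]
    by_cases heq : h (k + Q) = h k
    · rw [heq, sub_self]
      simpa using Finset.sum_nonneg fun o _ => hBad0 (k - P2 + o)
    have hle4 : (h (k + Q) - h k) ^ 2 ≤ 4 := by
      have a1 := hh (k + Q) (by omega)
      have a2 := hh k (by omega)
      nlinarith [sq_abs (h (k + Q)), sq_abs (h k), sq_nonneg (h (k + Q) + h k)]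
    set j := ⌊(k : ℝ) / N / r + 1 / 2⌋₊
    have hj1 := Nat.floor_le (show 0 ≤ (k : ℝ) / N / r + 1 / 2 by positivity)
    have hj2 := Nat.lt_floor_add_one ((k : ℝ) / N / r + 1 / 2)
    have hkN : (k : ℝ) / N ≤ 1 := (div_le_one hNr).2 (Nat.cast_le.2 (by omega))
    have hj1' : (j : ℝ) * r ≤ (k : ℝ) / N + r / 2 := by
      have := mul_le_mul_of_nonneg_right hj1 hr.le
      rwa [add_mul, div_mul_cancel₀ _ hr.ne', one_div_mul_eq_div] at this
    have hj2' : (k : ℝ) / N ≤ (j : ℝ) * r + r / 2 := by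
      have := mul_le_mul_of_nonneg_right hj2.le hr.le
      rw [add_mul, div_mul_cancel₀ _ hr.ne', one_div_mul_eq_div, add_mul, one_mul] at this
      linarith
    have hjM : j ∈ range (M + 1) := by
      rw [mem_range, Nat.lt_succ_iff]
      by_contra hlt
      have : (M : ℝ) + 1 ≤ j := by exact_mod_cast not_le.1 hlt
      nlinarith
    obtain ⟨o, ho, hyo⟩ : ∃ o ≤ P2 + Q, 1 ≤ |y j (k - P2 + o)| := by
      by_contra hc
      push Not at hc
      refine heq ?_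
      have := periodic_of_resid (d := d) (c j) (x := fun i => h (k - P2 + i))
        (fun i hi => hh _ (by omega)) fun i hi => by
          have := hc i hi
          simpa [y, resid, add_assoc] using this
      rw [show k - P2 + (P2 + Q) = k + Q by omega, show k - P2 + P2 = k by omega] at this
      exact this
    have hmem : k - P2 + o ∈ S j := by
      refine mem_filter.2 ⟨mem_range.2 (by omega), ?_⟩
      have hd1 : |((k - P2 + o : ℕ) : ℝ) / N - (k : ℝ) / N| ≤ r / 4 := by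
        rw [← sub_div, abs_div, abs_of_pos hNr, div_le_iff₀ hNr, Nat.cast_add, Nat.cast_sub hk1,
          abs_le]
        have a1 : (o : ℝ) ≤ (P2 : ℝ) + Q := by exact_mod_cast ho
        have a2 : (0 : ℝ) ≤ P2 := Nat.cast_nonneg _
        have a3 : (0 : ℝ) ≤ Q := Nat.cast_nonneg _
        have a4 : (0 : ℝ) ≤ o := Nat.cast_nonneg _
        constructor <;> linarith [Nat.cast_nonneg (α := ℝ) d]
      have hd2 : |((k - P2 + o : ℕ) : ℝ) / N - (j : ℝ) * r| ≤ 3 * r / 4 := by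
        rw [abs_le] at hd1 ⊢
        constructor <;> linarith
      rw [tent_eq (hd2.trans (by linarith))]
      refine le_max_of_le_right ?_
      have : |((k - P2 + o : ℕ) : ℝ) / N - (j : ℝ) * r| / r ≤ 3 / 4 := by
        rw [div_le_iff₀ hr]; linarith
      linarith
    refine hle4.trans ?_
    have h1 : 1 ≤ Bad (k - P2 + o) := by
      refine le_trans ?_ (single_le_sum (f := fun j => if k - P2 + o ∈ S j then y j (k - P2 + o) ^ 2
        else 0) (fun _ _ => by split_ifs <;> positivity) hjM)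
      rw [if_pos hmem, ← sq_abs]
      exact one_le_pow₀ hyo
    have h2 := single_le_sum (f := fun o => Bad (k - P2 + o)) (fun o _ => hBad0 _)
      (mem_range.2 (show o < P2 + Q + 1 by omega))
    linarith
  have hsum : ∑ k ∈ range N, (h ((k + Q) % N) - h k) ^ 2 ≤
      4 * ((Q : ℝ) + P2 + d) + 4 * ((Q : ℝ) + P2 + 1) * ∑ i ∈ range N, Bad i := by
    set T := range N \ Ico P2 (N - Q - d)
    have hsplit : ∑ k ∈ range N, (h ((k + Q) % N) - h k) ^ 2 =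
        ∑ k ∈ T, (h ((k + Q) % N) - h k) ^ 2 +
          ∑ k ∈ Ico P2 (N - Q - d), (h ((k + Q) % N) - h k) ^ 2 :=
      (sum_sdiff (fun k hk => mem_range.2 (by have := (mem_Ico.1 hk).2; omega))).symm
    rw [hsplit]
    refine add_le_add ?_ ?_
    · refine (sum_le_card_nsmul _ _ 4 fun k hk => ?_).trans ?_
      · have hk' := mem_range.1 (mem_sdiff.1 hk).1
        have a1 := hh ((k + Q) % N) (Nat.mod_lt _ hNpos)
        have a2 := hh k hk'
        nlinarith [sq_abs (h ((k + Q) % N)), sq_abs (h k), sq_nonneg (h ((k + Q) % N) + h k)]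
      · rw [nsmul_eq_mul, mul_comm]
        refine mul_le_mul_of_nonneg_left ?_ (by norm_num)
        have hc : T.card ≤ Q + P2 + d := by
          rw [card_sdiff_of_subset fun k hk => mem_range.2 (by have := (mem_Ico.1 hk).2; omega),
            card_range, Nat.card_Ico]
          exact (fun a b c e (h : a + c + b + 1 ≤ e) => by omega :
            ∀ a b c e : ℕ, a + c + b + 1 ≤ e → e - (e - a - b - c) ≤ a + c + b) _ _ _ _ hQPN
        exact_mod_cast hc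
    · refine (sum_le_sum fun k hk => hmid k (mem_Ico.1 hk).1
        (by have := (mem_Ico.1 hk).2; omega)).trans ?_
      rw [← mul_sum, sum_comm, mul_assoc]
      refine mul_le_mul_of_nonneg_left ?_ (by norm_num)
      refine (sum_le_card_nsmul _ _ (∑ i ∈ range N, Bad i) fun o ho => ?_).trans (le_of_eq ?_)
      · rw [← sum_image (g := fun k => k - P2 + o) (f := Bad) (fun a ha b hb hab => by
          have := (mem_Ico.1 ha).1; have := (mem_Ico.1 hb).1; simp only at hab; omega)]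
        refine sum_le_sum_of_subset_of_nonneg (fun i hi => ?_) fun i _ _ => hBad0 i
        obtain ⟨k, hk, rfl⟩ := mem_image.1 hi
        have := mem_Ico.1 hk
        have := mem_range.1 ho
        exact mem_range.2 (by omega)
      · rw [card_range, nsmul_eq_mul]
        push_cast
        ring
  refine hsum.trans (add_le_add le_rfl (mul_le_mul_of_nonneg_left ?_ (by positivity)))
  simp only [Bad]
  rw [sum_comm]
  refine sum_le_sum fun j _ => ?_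
  rw [← sum_filter]
  exact sum_le_sum_of_subset_of_nonneg (fun i hi => (mem_filter.1 hi).2) fun _ _ _ => sq_nonneg _

/-- One window, filtered by the polynomial annihilating the arcs that belong to it. -/
theorem window_bound {B : ℕ} {c r δ ω ε ξ : ℝ} (hr : 0 < r) (hrδ : 8 * r ≤ δ) (hc0 : 0 ≤ c)
    (hc : c ≤ 2) (hω : 0 ≤ ω) (hε : 0 < ε) {n : ℕ} (a : Fin n → ℂ) (lam : Fin n → ℝ)
    (happ : ∀ x : ℝ, ‖(tent c r x : ℂ) - expSum a lam x‖ ≤ ε) (hξ0 : 0 ≤ ξ) (hξr : ξ ≤ r)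
    (hξ : ξ * (∑ m, ‖a m‖ + 1) ≤ ε) {h : ℕ → ℝ} {N : ℕ} (hN : 0 < N) (hh : ∀ k < N, |h k| = 1)
    {ζ : ℂ} (hζ : IsPrimitiveRoot ζ N) (hPz : ∀ s, ‖pol h N (ζ ^ s)‖ ≤ 2 * Real.sqrt N)
    (t : ℕ → ℝ) (ht : ∀ s, 0 ≤ t s ∧ t s ≤ 1) (htd : ∀ s, |delay h N (ζ ^ s) - t s| ≤ ξ)
    (hwave : ∀ s, ∀ m : Fin n, ‖pol h N (ζ ^ s * exp (I * (lam m / N : ℝ))) -
        pol h N (ζ ^ s) * exp (I * (lam m * t s : ℝ))‖ ≤ ξ * Real.sqrt N)
    (β : Fin B → ℝ) (hβ : ∀ θ : ℝ, delay h N (exp (θ * I)) ∈ Set.Icc (c - 2 * r) (c - 2 * r + δ) →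
      ∃ i, ‖exp (θ * I) - exp (β i * I)‖ ≤ ω) :
    ∑ i ∈ (range (N - 2 * B)).filter (fun i : ℕ => 1 / 4 ≤ tent c r ((i : ℝ) / N)),
        resid (fun m => (annPoly (List.ofFn β)).coeff m) (2 * B) h i ^ 2 ≤
      32 * (3 * ((4 : ℝ) ^ B) ^ 2 * (4 * ω ^ 2 * (∑ s ∈ range N, tent c r (t s)) + 10 * ε ^ 2 * N) +
        N * ((((2 * B : ℕ) : ℝ) + 1) ^ 2 * (4 : ℝ) ^ B / r / N) ^ 2) := by
  have hz : ∀ s, ‖ζ ^ s‖ = 1 := fun s => by rw [norm_pow, hζ.norm'_eq_one hN.ne', one_pow]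
  have hlen : (List.ofFn β).length = B := List.length_ofFn
  have hdeg : (annPoly (List.ofFn β)).natDegree = 2 * B := by
    rw [(monic_annPoly _).2, hlen]
  have hcoef : ∀ m, |(annPoly (List.ofFn β)).coeff m| ≤ (4 : ℝ) ^ B := fun m => by
    simpa [hlen] using abs_coeff_annPoly (List.ofFn β) m
  have hA : ∀ s, ‖aeval (ζ ^ s) (annPoly (List.ofFn β))‖ ≤ (4 : ℝ) ^ B := fun s => by
    simpa [hlen] using (norm_aeval_annPoly_le (hz s) (List.ofFn β)).1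
  refine window_resid hr a lam hε happ (by positivity) hω hξ hξ0 hN hh hζ (monic_annPoly _).1 hdeg
    hcoef hPz t hwave hA fun s hs => ?_
  have hexp : exp ((Complex.arg (ζ ^ s) : ℂ) * I) = ζ ^ s := by
    conv_rhs => rw [← norm_mul_exp_arg_mul_I (ζ ^ s), hz s, ofReal_one, one_mul]
  have h1 := abs_lt.1
    (tent_pos hr (abs_le.2 ⟨by linarith [(ht s).1], by linarith [(ht s).2]⟩) hs)
  have h2 := abs_le.1 (htd s)
  obtain ⟨i, hi⟩ := hβ (Complex.arg (ζ ^ s)) (by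
    rw [hexp]
    exact ⟨by linarith, by linarith⟩)
  rw [hexp] at hi
  simpa [hlen] using (norm_aeval_annPoly_le (hz s) (List.ofFn β)).2 (β i)
    (List.mem_ofFn.2 ⟨i, rfl⟩) ω hi

/-- All windows together. -/
theorem windows_sum {M N : ℕ} {r : ℝ} (hr : 0 < r) (hr1 : r ≤ 1) (hM : (M : ℝ) * r ≤ 2) {t : ℕ → ℝ}
    (ht : ∀ s, 0 ≤ t s ∧ t s ≤ 1) {A ω ε E : ℝ} (hA : 0 ≤ A) {F : ℕ → ℝ}
    (hF : ∀ j ∈ range (M + 1), F j ≤
      32 * (A * (4 * ω ^ 2 * (∑ s ∈ range N, tent ((j : ℝ) * r) r (t s)) + 10 * ε ^ 2 * N) + E)) :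
    ∑ j ∈ range (M + 1), F j ≤
      32 * (A * (8 * ω ^ 2 * N + 10 * ((M : ℝ) + 1) * ε ^ 2 * N) + ((M : ℝ) + 1) * E) := by
  refine (sum_le_sum hF).trans ?_
  rw [← mul_sum, sum_add_distrib, ← mul_sum, sum_add_distrib, ← mul_sum, sum_const, sum_const,
    card_range, nsmul_eq_mul, nsmul_eq_mul, sum_comm]
  refine mul_le_mul_of_nonneg_left (add_le_add (mul_le_mul_of_nonneg_left ?_ hA)
    (le_of_eq (by push_cast; ring))) (by norm_num)
  refine add_le_add ?_ (le_of_eq (by push_cast; ring))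
  refine (mul_le_mul_of_nonneg_left
    (sum_le_card_nsmul _ _ 2 fun s _ => sum_tent_le hr hr1 (ht s).1 (ht s).2 hM)
    (by positivity)).trans (le_of_eq ?_)
  rw [card_range, nsmul_eq_mul]
  ring

/-- The concluding arithmetic. -/
theorem no_room {L0 D ω ε E K2 M N G S : ℝ} (hN : 1 ≤ N) (hG0 : N ≤ G + 4 * L0 * S) (hL : 0 ≤ L0)
    (hS : S ≤ 32 * (3 * D ^ 2 * (8 * ω ^ 2 * N + 10 * (M + 1) * ε ^ 2 * N) +
      (M + 1) * (N * (E / N) ^ 2)))
    (e2 : 128 * L0 * 36 * D ^ 2 * ω ^ 2 = 1 / 8)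
    (e3 : 128 * L0 * 30 * D ^ 2 * (M + 1) * ε ^ 2 = 1 / 8)
    (hK : K2 = 128 * L0 * (M + 1) * E ^ 2) (hK2 : 4 * K2 ≤ N) (hG : G ≤ N / 4) : False := by
  have h1 := hG0.trans
    (add_le_add le_rfl (mul_le_mul_of_nonneg_left hS (show 0 ≤ 4 * L0 by linarith)))
  have e : 4 * L0 * (32 * (3 * D ^ 2 * (8 * ω ^ 2 * N + 10 * (M + 1) * ε ^ 2 * N) +
      (M + 1) * (N * (E / N) ^ 2))) =
      2 / 3 * (128 * L0 * 36 * D ^ 2 * ω ^ 2) * N +
        (128 * L0 * 30 * D ^ 2 * (M + 1) * ε ^ 2) * N + K2 / N := by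
    rw [hK]
    field_simp
    ring
  have e4 : K2 / N ≤ 1 / 4 * N := by
    rw [div_le_iff₀ (by linarith)]
    nlinarith
  rw [e, e2, e3] at h1
  linarith

/-- The group delay of a nearly flat Littlewood polynomial does not send unions of `B` short arcs
onto short intervals. -/
theorem no_thin_delay (B : ℕ) : ∃ ω : ℝ, 0 < ω ∧ ∀ δ : ℝ, 0 < δ → ∃ η : ℝ, 0 < η ∧ ∃ N₀ : ℕ,
    ∀ (h : ℕ → ℝ) (N : ℕ), N₀ ≤ N → (∀ k < N, |h k| = 1) → Flat h N η →
      ¬ ∀ a : ℝ, ∃ β : Fin B → ℝ, ∀ θ : ℝ,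
        delay h N (exp (θ * I)) ∈ Set.Icc a (a + δ) →
          ∃ i, ‖exp (θ * I) - exp (β i * I)‖ ≤ ω := by
  classical
  obtain ⟨L0, hL0e⟩ : ∃ L0 : ℝ, L0 = (period (2 * B) : ℝ) + (2 : ℝ) ^ (2 * B) + 1 := ⟨_, rfl⟩
  have hL0 : 0 < L0 := by rw [hL0e]; positivity
  have hD0 : (0 : ℝ) < 4 ^ B := by positivity
  obtain ⟨ω, hω, e2⟩ : ∃ ω : ℝ, 0 < ω ∧
      128 * L0 * 36 * ((4 : ℝ) ^ B) ^ 2 * ω ^ 2 = 1 / 8 := by
    refine ⟨Real.sqrt (1 / (8 * (128 * L0 * 36 * ((4 : ℝ) ^ B) ^ 2))),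
      Real.sqrt_pos.2 (by positivity), ?_⟩
    rw [Real.sq_sqrt (by positivity)]
    field_simp
  refine ⟨ω, hω, fun δ hδ => ?_⟩
  obtain ⟨r, hr, hr1, hrδ⟩ : ∃ r : ℝ, 0 < r ∧ 8 * r ≤ 1 ∧ 8 * r ≤ δ :=
    ⟨min δ 1 / 8, by positivity, by linarith [min_le_right δ (1 : ℝ)],
      by linarith [min_le_left δ (1 : ℝ)]⟩
  obtain ⟨M, hM1, hM2⟩ : ∃ M : ℕ, 1 ≤ (M : ℝ) * r ∧ (M : ℝ) * r ≤ 2 := by
    refine ⟨⌈1 / r⌉₊, (div_le_iff₀ hr).1 (Nat.le_ceil _), ?_⟩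
    have h1 := Nat.ceil_lt_add_one (show 0 ≤ 1 / r by positivity)
    have h2 := mul_le_mul_of_nonneg_right h1.le hr.le
    rw [add_mul, div_mul_cancel₀ _ hr.ne'] at h2
    linarith
  obtain ⟨ε, hε, e3⟩ : ∃ ε : ℝ, 0 < ε ∧
      128 * L0 * 30 * ((4 : ℝ) ^ B) ^ 2 * ((M : ℝ) + 1) * ε ^ 2 = 1 / 8 := by
    refine ⟨Real.sqrt (1 / (8 * (128 * L0 * 30 * ((4 : ℝ) ^ B) ^ 2 * ((M : ℝ) + 1)))),
      Real.sqrt_pos.2 (by positivity), ?_⟩
    rw [Real.sq_sqrt (by positivity)]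
    field_simp
  choose n av lam happ using fun i : ℕ => exists_approx ((i : ℝ) * r) hr hε
  obtain ⟨Λ, hΛ0, hΛ⟩ : ∃ Λ : ℝ, 0 ≤ Λ ∧ ∀ j ∈ range (M + 1), ∀ m, |lam j m| ≤ Λ :=
    ⟨∑ j ∈ range (M + 1), ∑ m, |lam j m|, by positivity, fun j hj m =>
      (single_le_sum (f := fun m => |lam j m|) (fun _ _ => abs_nonneg _) (mem_univ m)).trans
        (single_le_sum (f := fun j => ∑ m, |lam j m|)
          (fun _ _ => Finset.sum_nonneg fun _ _ => abs_nonneg _) hj)⟩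
  obtain ⟨Bs, hBs0, hBs⟩ : ∃ Bs : ℝ, 0 < Bs ∧ ∀ j ∈ range (M + 1), ∑ m, ‖av j m‖ + 1 ≤ Bs :=
    ⟨∑ j ∈ range (M + 1), ∑ m, ‖av j m‖ + 1, by positivity, fun j hj => by
      linarith [single_le_sum (f := fun j => ∑ m, ‖av j m‖)
        (fun j _ => Finset.sum_nonneg fun m _ => norm_nonneg _) hj]⟩
  obtain ⟨ξ, hξ0, hξr, hξB⟩ : ∃ ξ : ℝ, 0 < ξ ∧ ξ ≤ r ∧ ξ * Bs ≤ ε :=
    ⟨min r (ε / Bs), lt_min hr (by positivity), min_le_left _ _,
      (le_div_iff₀ hBs0).1 (min_le_right _ _)⟩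
  obtain ⟨η₀, hη₀, hwave⟩ := local_wave_delay hΛ0 hξ0
  obtain ⟨K2, hK2e⟩ : ∃ K2 : ℝ, K2 = 128 * L0 * ((M : ℝ) + 1) *
      ((((2 * B : ℕ) : ℝ) + 1) ^ 2 * (4 : ℝ) ^ B / r) ^ 2 := ⟨_, rfl⟩
  obtain ⟨N₀, hN₀⟩ := exists_nat_ge (16 * (L0 + (2 * B : ℕ)) / r + 4 * K2)
  refine ⟨min η₀ (1 / 4), lt_min hη₀ (by norm_num), N₀ + 1, fun h N hN hh hfl hcon => ?_⟩
  have hNpos : 0 < N := by omega
  have hNr : (0 : ℝ) < N := Nat.cast_pos.2 hNpos
  have hN1 : (1 : ℝ) ≤ N := Nat.one_le_cast.2 hNpos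
  have hle : 16 * (L0 + (2 * B : ℕ)) / r + 4 * K2 ≤ N := hN₀.trans (Nat.cast_le.2 (by omega))
  have hK20 : 0 ≤ K2 := by rw [hK2e]; positivity
  have hbig2 : 4 * K2 ≤ N := le_trans (le_add_of_nonneg_left (by positivity)) hle
  have hbig1 : 16 * (L0 + (2 * B : ℕ)) ≤ r * N := by
    have h1 : 16 * (L0 + (2 * B : ℕ)) / r ≤ N := by linarith
    rw [div_le_iff₀ hr] at h1; linarith
  have hrN : r * N ≤ 1 * N := mul_le_mul_of_nonneg_right (by linarith) hNr.le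
  have hd0 : (0 : ℝ) ≤ (2 * B : ℕ) := Nat.cast_nonneg _
  have hQN : period (2 * B) < N := by
    have h2 : (0 : ℝ) ≤ 2 ^ (2 * B) := by positivity
    exact Nat.cast_lt (α := ℝ) |>.1 (by linarith)
  obtain ⟨ζ, hζ⟩ : ∃ ζ : ℂ, IsPrimitiveRoot ζ N := ⟨_, Complex.isPrimitiveRoot_exp N hNpos.ne'⟩
  have hz : ∀ s, ‖ζ ^ s‖ = 1 := fun s => by rw [norm_pow, hζ.norm'_eq_one hNpos.ne', one_pow]
  have hs0 : 0 ≤ Real.sqrt (N : ℝ) := Real.sqrt_nonneg _
  have hlow : ∀ s, Real.sqrt N * (3 / 4) ≤ ‖pol h N (ζ ^ s)‖ := fun s => by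
    refine le_trans ?_ (hfl _ (hz s)).1
    nlinarith [min_le_right η₀ (1 / 4 : ℝ)]
  have hup : ∀ s, ‖pol h N (ζ ^ s)‖ ≤ 2 * Real.sqrt N := fun s => by
    refine (hfl _ (hz s)).2.trans ?_
    nlinarith [min_le_right η₀ (1 / 4 : ℝ)]
  choose t ht htd htw using fun s =>
    hwave h N hNpos _ (le_min hη₀.le (by norm_num)) (min_le_left _ _) hfl (ζ ^ s) (hz s)
  choose β hβ using fun j : ℕ => hcon ((j : ℝ) * r - 2 * r)
  have hwin : ∀ j ∈ range (M + 1), ∑ i ∈ (range (N - 2 * B)).filter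
      (fun i : ℕ => 1 / 4 ≤ tent ((j : ℝ) * r) r ((i : ℝ) / N)),
        resid (fun m => (annPoly (List.ofFn (β j))).coeff m) (2 * B) h i ^ 2 ≤
      32 * (3 * ((4 : ℝ) ^ B) ^ 2 * (4 * ω ^ 2 * (∑ s ∈ range N, tent ((j : ℝ) * r) r (t s)) +
        10 * ε ^ 2 * N) + N * ((((2 * B : ℕ) : ℝ) + 1) ^ 2 * (4 : ℝ) ^ B / r / N) ^ 2) := by
    intro j hj
    have hjM : (j : ℝ) ≤ M := Nat.cast_le.2 (Nat.lt_succ_iff.1 (mem_range.1 hj))
    have hjr := mul_le_mul_of_nonneg_right hjM hr.le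
    exact window_bound hr hrδ (by positivity) (hjr.trans hM2) hω.le hε (av j) (lam j) (happ j)
      hξ0.le hξr (le_trans (mul_le_mul_of_nonneg_left (hBs j hj) hξ0.le) hξB) hNpos hh hζ hup t ht
      htd (fun s m => htw s _ (hΛ j hj m)) (β j) (hβ j)
  have hsum := shift_le_resid (d := 2 * B) hr hr1 (M := M) hM1 hh
    (by rw [hL0e] at hbig1; linarith) fun j m => (annPoly (List.ofFn (β j))).coeff m
  rw [← hL0e] at hsum
  have hS := windows_sum hr (by linarith) hM2 ht (A := 3 * ((4 : ℝ) ^ B) ^ 2) (by positivity) hwin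
  refine no_room hN1 ((shift_energy hζ (Nat.factorial_pos _) hQN hlow).trans hsum) hL0.le hS e2 e3
    hK2e hbig2 ?_
  rw [hL0e] at hbig1
  linarith

/-- No nearly flat Littlewood polynomial has a group delay with finitely many injective branches. -/
theorem no_branches (B : ℕ) (c : ℝ → ℝ) (hc : ∀ u, 0 < u → 0 < c u) : ∃ η : ℝ, 0 < η ∧ ∃ N₀ : ℕ,
    ∀ (h : ℕ → ℝ) (N : ℕ), N₀ ≤ N → (∀ k < N, |h k| = 1) → Flat h N η →
      ¬ ∃ A : Fin B → Set ℝ, (∀ θ, ∃ i, θ ∈ A i) ∧ ∀ i, ∀ θ ∈ A i, ∀ θ' ∈ A i, ∀ u : ℝ, 0 < u →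
        u ≤ ‖exp (θ * I) - exp (θ' * I)‖ →
          c u ≤ |delay h N (exp (θ * I)) - delay h N (exp (θ' * I))| := by
  classical
  obtain ⟨ω, hω, H⟩ := no_thin_delay B
  obtain ⟨η, hη, N₀, H'⟩ := H (c ω / 2) (by linarith [hc ω hω])
  refine ⟨η, hη, N₀, fun h N hN hh hfl ⟨A, hcov, hinj⟩ => H' h N hN hh hfl fun a => ?_⟩
  set q := fun θ : ℝ => delay h N (exp (θ * I))
  refine ⟨fun i => if hi : ∃ θ, θ ∈ A i ∧ q θ ∈ Set.Icc a (a + c ω / 2) then hi.choose else 0,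
    fun θ hθ => ?_⟩
  obtain ⟨i, hi⟩ := hcov θ
  have hex : ∃ θ, θ ∈ A i ∧ q θ ∈ Set.Icc a (a + c ω / 2) := ⟨θ, hi, hθ⟩
  refine ⟨i, ?_⟩
  simp only [dif_pos hex]
  obtain ⟨h1, h2⟩ := hex.choose_spec
  by_contra hgt
  have h3 : c ω ≤ |q θ - q hex.choose| := hinj i θ hi _ h1 ω hω (not_le.1 hgt).le
  have h4 : |q θ - q hex.choose| ≤ c ω / 2 :=
    abs_le.2 ⟨by linarith [h2.2, hθ.1], by linarith [h2.1, hθ.2]⟩
  linarith [hc ω hω]

end Vale.Agent.P110.Delay
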