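import Mathlib

/-!
P110: a sign sequence that almost satisfies a monic linear recurrence is periodic.
-/

namespace Vale.Agent.P110.Delay

open Finset Polynomial

/-- The residual of the recurrence with coefficients `c` at position `i`. -/
def resid (c : ℕ → ℝ) (d : ℕ) (x : ℕ → ℝ) (i : ℕ) : ℝ := x (i + d) + ∑ m ∈ range d, c m * x (i + m)

/-- A universal period for sign recurrences of order `d`. -/
def period (d : ℕ) : ℕ := (2 ^ d).factorial

theorem periodic_of_resid {d : ℕ} (c : ℕ → ℝ) {x : ℕ → ℝ}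
    (hx : ∀ i ≤ 2 ^ d + period d + d, |x i| = 1)
    (hy : ∀ i ≤ 2 ^ d + period d, |resid c d x i| < 1) : x (2 ^ d + period d) = x (2 ^ d) := by
  classical
  obtain ⟨i₁, h1, i₂, h2, hne, heq⟩ := exists_ne_map_eq_of_card_lt_of_maps_to
    (s := range (2 ^ d + 1)) (t := (univ : Finset (Fin d → Bool)))
    (by simp) (f := fun i m => decide (x (i + (m : ℕ)) = 1)) (fun i _ => mem_coe.2 (mem_univ _))
  wlog hlt : i₁ < i₂ generalizing i₁ i₂
  · exact this i₂ h2 i₁ h1 hne.symm heq.symm (by omega)
  have hi2 : i₂ ≤ 2 ^ d := by rw [mem_range] at h2; omega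
  have hcase : ∀ i ≤ 2 ^ d + period d + d, x i = 1 ∨ x i = -1 := fun i hi => by
    have := hx i hi
    rwa [abs_eq zero_le_one] at this
  have key : ∀ m, i₂ + m ≤ 2 ^ d + period d → x (i₁ + m) = x (i₂ + m) := by
    intro m
    induction m using Nat.strong_induction_on with
    | _ m ih =>
      intro hm
      rcases lt_or_ge m d with hmd | hmd
      · have := congrFun heq ⟨m, hmd⟩
        simp only [decide_eq_decide] at this
        rcases hcase (i₁ + m) (by omega) with e1 | e1 <;>
          rcases hcase (i₂ + m) (by omega) with e2 | e2 <;>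
          simp_all <;> norm_num at *
      · obtain ⟨u, rfl⟩ : ∃ u, m = u + d := ⟨m - d, by omega⟩
        have y1 := hy (i₁ + u) (by omega)
        have y2 := hy (i₂ + u) (by omega)
        have es : ∑ j ∈ range d, c j * x (i₁ + u + j) = ∑ j ∈ range d, c j * x (i₂ + u + j) := by
          refine sum_congr rfl fun j hj => ?_
          have hj' := mem_range.1 hj
          rw [add_assoc, add_assoc, ih (u + j) (by omega) (by omega)]
        simp only [resid, es, abs_lt] at y1 y2
        rw [← add_assoc, ← add_assoc]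
        rcases hcase (i₁ + u + d) (by omega) with e1 | e1 <;>
          rcases hcase (i₂ + u + d) (by omega) with e2 | e2 <;> linarith [y1.1, y1.2, y2.1, y2.2]
  obtain ⟨n, hn⟩ : i₂ - i₁ ∣ period d := Nat.dvd_factorial (by omega) (by omega)
  suffices h : ∀ j ≤ n, x (2 ^ d + (i₂ - i₁) * j) = x (2 ^ d) by
    have := h n le_rfl
    rwa [← hn] at this
  intro j hj
  induction j with
  | zero => simp
  | succ j ih =>
    have hle : (i₂ - i₁) * (j + 1) ≤ period d := hn ▸ Nat.mul_le_mul_left _ hj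
    have hexp : (i₂ - i₁) * (j + 1) = (i₂ - i₁) * j + (i₂ - i₁) := Nat.mul_succ _ _
    rw [← ih (by omega)]
    have := key (2 ^ d + (i₂ - i₁) * j - i₁) (by omega)
    rw [show i₁ + (2 ^ d + (i₂ - i₁) * j - i₁) = 2 ^ d + (i₂ - i₁) * j by omega,
      show i₂ + (2 ^ d + (i₂ - i₁) * j - i₁) = 2 ^ d + (i₂ - i₁) * (j + 1) by omega] at this
    exact this.symm

/-- The real polynomial with roots `exp (± i β)`. -/
noncomputable def annPoly : List ℝ → ℝ[X]
  | [] => 1
  | b :: l => annPoly l * (X ^ 2 + C (-2 * Real.cos b) * X + 1)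

theorem monic_annPoly : ∀ l : List ℝ, (annPoly l).Monic ∧ (annPoly l).natDegree = 2 * l.length
  | [] => by simp [annPoly]
  | b :: l => by
    obtain ⟨h1, h2⟩ := monic_annPoly l
    have hq : (X ^ 2 + C (-2 * Real.cos b) * X + 1 : ℝ[X]).Monic := by monicity!
    have hd : (X ^ 2 + C (-2 * Real.cos b) * X + 1 : ℝ[X]).natDegree = 2 := by compute_degree!
    refine ⟨h1.mul hq, ?_⟩
    rw [annPoly, h1.natDegree_mul hq, h2, hd, List.length_cons]
    ring

theorem abs_coeff_annPoly : ∀ (l : List ℝ) (n : ℕ), |(annPoly l).coeff n| ≤ 4 ^ l.length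
  | [], n => by rcases n with _ | n <;> simp [annPoly, coeff_one]
  | b :: l, n => by
    have hc : |-2 * Real.cos b| ≤ 2 := by
      rw [abs_mul]; norm_num; exact Real.abs_cos_le_one b
    have hn := abs_coeff_annPoly l
    have h4 : (0 : ℝ) ≤ 4 ^ l.length := by positivity
    have e : annPoly l * (X ^ 2 + C (-2 * Real.cos b) * X + 1) =
        annPoly l * X ^ 2 + C (-2 * Real.cos b) * (annPoly l * X) + annPoly l := by ring
    rw [annPoly, e, coeff_add, coeff_add, coeff_C_mul, List.length_cons, pow_succ (4 : ℝ)]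
    have a1 : |(annPoly l * X ^ 2).coeff n| ≤ 4 ^ l.length := by
      rw [coeff_mul_X_pow']; split_ifs
      · exact hn _
      · simpa using h4
    have a2 : |-2 * Real.cos b * (annPoly l * X).coeff n| ≤ 2 * 4 ^ l.length := by
      rw [abs_mul]
      refine mul_le_mul hc ?_ (abs_nonneg _) zero_le_two
      rcases n with _ | n
      · simpa using h4
      · rw [coeff_mul_X]; exact hn _
    refine (abs_add_three _ _ _).trans ?_
    linarith [hn n]

theorem norm_factor {z : ℂ} (b : ℝ) :
    ‖z ^ 2 + ((-2 * Real.cos b : ℝ) : ℂ) * z + 1‖ =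
      ‖z - Complex.exp (b * Complex.I)‖ * ‖z - Complex.exp (-(b : ℂ) * Complex.I)‖ := by
  rw [← norm_mul]
  congr 1
  have h1 : Complex.exp ((b : ℂ) * Complex.I) * Complex.exp (-(b : ℂ) * Complex.I) = 1 := by
    rw [← Complex.exp_add]; simp
  have h2 : Complex.exp ((b : ℂ) * Complex.I) + Complex.exp (-(b : ℂ) * Complex.I) =
      2 * Complex.cos b := by
    rw [Complex.cos]; ring
  push_cast
  linear_combination -h1 + z * h2

theorem norm_aeval_annPoly_le {z : ℂ} (hz : ‖z‖ = 1) :
    ∀ l : List ℝ, ‖aeval z (annPoly l)‖ ≤ 4 ^ l.length ∧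
      ∀ b ∈ l, ∀ ω : ℝ, ‖z - Complex.exp (b * Complex.I)‖ ≤ ω →
        ‖aeval z (annPoly l)‖ ≤ 4 ^ l.length * ω
  | [] => by simp [annPoly]
  | b :: l => by
    obtain ⟨h1, h2⟩ := norm_aeval_annPoly_le hz l
    have e1 : ∀ v : ℂ, ‖v‖ = 1 → ‖z - v‖ ≤ 2 := fun v hv =>
      (norm_sub_le _ _).trans (by rw [hz, hv]; norm_num)
    have n1 : ‖Complex.exp ((b : ℂ) * Complex.I)‖ = 1 := Complex.norm_exp_ofReal_mul_I b
    have n2 : ‖Complex.exp (-(b : ℂ) * Complex.I)‖ = 1 := by
      rw [← Complex.ofReal_neg]; exact Complex.norm_exp_ofReal_mul_I _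
    have f1 := e1 _ n1
    have f2 := e1 _ n2
    have h4 : (0 : ℝ) ≤ 4 ^ l.length := by positivity
    have hfac : ‖aeval z (annPoly (b :: l))‖ = ‖aeval z (annPoly l)‖ *
        (‖z - Complex.exp (b * Complex.I)‖ * ‖z - Complex.exp (-(b : ℂ) * Complex.I)‖) := by
      rw [annPoly, map_mul, norm_mul, ← norm_factor]
      simp
    rw [hfac, List.length_cons, pow_succ]
    refine ⟨?_, fun c hc ω hω => ?_⟩
    · exact (mul_le_mul h1 (mul_le_mul f1 f2 (norm_nonneg _) zero_le_two)
        (by positivity) h4).trans_eq (by norm_num)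
    · rcases List.mem_cons.1 hc with rfl | hcl
      · refine (mul_le_mul h1 (mul_le_mul hω f2 (norm_nonneg _)
          ((norm_nonneg _).trans hω)) (by positivity) h4).trans ?_
        nlinarith [(norm_nonneg _).trans hω]
      · have hω0 : 0 ≤ ω := (norm_nonneg _).trans hω
        exact (mul_le_mul (h2 c hcl ω hω) (mul_le_mul f1 f2 (norm_nonneg _) zero_le_two)
          (by positivity) (mul_nonneg h4 hω0)).trans_eq (by ring)

end Vale.Agent.P110.Delay
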