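import Vale.Agent.P110.Window.Twin
import Vale.Agent.P110.Delay.Recur

/-!
P110: the circular spectral identities and the estimate on one time window.
-/

namespace Vale.Agent.P110.Delay

open Finset Complex Polynomial Vale.Agent.P110.Window

theorem sum_shift {N : ℕ} (hN : 0 < N) {z : ℂ} (hz : z ^ N = 1) (c : ℕ → ℂ) (i : ℕ) :
    (∑ k ∈ range N, c ((k + i) % N) * z ^ k) * z ^ i = ∑ k ∈ range N, c k * z ^ k := by
  rw [sum_mul]
  have e : ∀ k, c ((k + i) % N) * z ^ k * z ^ i = c ((k + i) % N) * z ^ ((k + i) % N) := fun k => by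
    rw [mul_assoc, ← pow_add, ← pow_eq_pow_mod _ hz]
  simp only [e]
  refine sum_bij (fun k _ => (k + i) % N) (fun k _ => mem_range.2 (Nat.mod_lt _ hN))
    (fun a ha b hb hab => ?_) (fun b hb => ?_) fun k _ => rfl
  · have h : Nat.ModEq N (a + i) (b + i) := hab
    exact Nat.ModEq.eq_of_lt_of_lt (Nat.ModEq.add_right_cancel' i h) (mem_range.1 ha)
      (mem_range.1 hb)
  · refine ⟨(b + (N - i % N)) % N, mem_range.2 (Nat.mod_lt _ hN), ?_⟩
    have h1 := Nat.mod_add_div i N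
    have h2 := Nat.mod_lt i hN
    rw [Nat.mod_add_mod, show b + (N - i % N) + i = b + N * (i / N + 1) by
      rw [Nat.mul_succ]; omega, Nat.add_mul_mod_self_left, Nat.mod_eq_of_lt (mem_range.1 hb)]

theorem sum_filtered {N : ℕ} (hN : 0 < N) {z : ℂ} (hz : z ^ N = 1) (c : ℕ → ℂ) (p : ℝ[X]) :
    ∑ k ∈ range N, (∑ i ∈ range (p.natDegree + 1), (p.coeff i : ℂ) * c ((k + i) % N)) * z ^ k =
      aeval z⁻¹ p * ∑ k ∈ range N, c k * z ^ k := by
  have hz0 : z ≠ 0 := fun h => by simp [h, hN.ne'] at hz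
  rw [aeval_eq_sum_range, sum_mul]
  simp only [sum_mul]
  rw [sum_comm]
  refine sum_congr rfl fun i _ => ?_
  rw [← sum_shift hN hz c i, Complex.real_smul, sum_mul, mul_sum]
  refine sum_congr rfl fun k _ => ?_
  rw [inv_pow]
  field_simp

theorem parseval_filtered {ζ : ℂ} {N : ℕ} (hζ : IsPrimitiveRoot ζ N) (hN : 0 < N) (c : ℕ → ℂ)
    (p : ℝ[X]) :
    (N : ℝ) * ∑ k ∈ range N, ‖∑ i ∈ range (p.natDegree + 1), (p.coeff i : ℂ) * c ((k + i) % N)‖ ^ 2 =
      ∑ s ∈ range N, ‖aeval (ζ ^ s)⁻¹ p‖ ^ 2 * ‖∑ k ∈ range N, c k * (ζ ^ s) ^ k‖ ^ 2 := by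
  rw [← parseval hζ hN]
  refine sum_congr rfl fun s _ => ?_
  rw [sum_filtered hN (by rw [← pow_mul, mul_comm, pow_mul, hζ.pow_eq_one, one_pow]), norm_mul,
    mul_pow]

theorem norm_aeval_inv {z : ℂ} (hz : ‖z‖ = 1) (p : ℝ[X]) : ‖aeval z⁻¹ p‖ = ‖aeval z p‖ := by
  rw [Complex.inv_eq_conj hz, aeval_conj, Complex.norm_conj]

/-- The spectral estimate for the window with profile `tent c r`: the filter `p` is small at the
grid points whose frequency lies in the window. -/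
theorem window_estimate {c r : ℝ} (hr : 0 < r) {n : ℕ} (a : Fin n → ℂ) (lam : Fin n → ℝ) {ε : ℝ}
    (hε : 0 < ε) (happ : ∀ x : ℝ, ‖(tent c r x : ℂ) - expSum a lam x‖ ≤ ε) {ξ A ω : ℝ} (hA : 0 ≤ A)
    (hω : 0 ≤ ω) (hξ : ξ * (∑ m, ‖a m‖ + 1) ≤ ε) (hξ0 : 0 ≤ ξ)
    {h : ℕ → ℝ} {N : ℕ} (hN : 0 < N) (hh : ∀ k < N, |h k| = 1)
    {ζ : ℂ} (hζ : IsPrimitiveRoot ζ N) (p : ℝ[X])
    (hPz : ∀ s, ‖pol h N (ζ ^ s)‖ ≤ 2 * Real.sqrt N)
    (t : ℕ → ℝ) (hwave : ∀ s, ∀ m : Fin n,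
      ‖pol h N (ζ ^ s * exp (I * (lam m / N : ℝ))) -
        pol h N (ζ ^ s) * exp (I * (lam m * t s : ℝ))‖ ≤ ξ * Real.sqrt N)
    (hp : ∀ s, ‖aeval (ζ ^ s) p‖ ≤ A)
    (hp' : ∀ s, 0 < tent c r (t s) → ‖aeval (ζ ^ s) p‖ ≤ A * ω) :
    (N : ℝ) * ∑ k ∈ range N, ‖∑ i ∈ range (p.natDegree + 1),
        (p.coeff i : ℂ) * ((tent c r (((k + i) % N : ℕ) / (N : ℝ)) : ℂ) * h ((k + i) % N))‖ ^ 2 ≤
      3 * A ^ 2 * (4 * N * ω ^ 2 * (∑ s ∈ range N, tent c r (t s)) + 10 * ε ^ 2 * N * N) := by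
  have hNr : (0 : ℝ) < N := Nat.cast_pos.2 hN
  set sN := Real.sqrt N with hsN
  have hs : sN * sN = N := Real.mul_self_sqrt hNr.le
  have hs0 : 0 ≤ sN := Real.sqrt_nonneg _
  rw [parseval_filtered hζ hN (fun j => (tent c r ((j : ℝ) / N) : ℂ) * h j) p]
  set T : ℕ → ℂ := fun s => wpol (fun x => (tent c r x : ℂ)) h N (ζ ^ s)
  set W : ℕ → ℂ := fun s => wpol (expSum a lam) h N (ζ ^ s)
  set e : ℕ → ℝ := fun s => ‖T s - W s‖
  have herr : ∑ s ∈ range N, e s ^ 2 ≤ ε ^ 2 * N * N := by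
    have eq : ∀ s, T s - W s = ∑ i ∈ range N,
        (((tent c r ((i : ℝ) / N) : ℂ) - expSum a lam ((i : ℝ) / N)) * h i) * (ζ ^ s) ^ i := fun s => by
      simp only [T, W, wpol, ← sum_sub_distrib, sub_mul]
    simp only [e, eq]
    rw [parseval hζ hN]
    have h1 : ∑ i ∈ range N, ‖((tent c r ((i : ℝ) / N) : ℂ) - expSum a lam ((i : ℝ) / N)) *
        (h i : ℂ)‖ ^ 2 ≤ ∑ _i ∈ range N, ε ^ 2 := sum_le_sum fun i hi => by
      rw [norm_mul, Complex.norm_real, Real.norm_eq_abs, hh i (mem_range.1 hi), mul_one]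
      exact pow_le_pow_left₀ (norm_nonneg _) (happ _) 2
    rw [sum_const, card_range, nsmul_eq_mul] at h1
    nlinarith
  have hpt : ∀ s, ‖aeval (ζ ^ s)⁻¹ p‖ ^ 2 * ‖T s‖ ^ 2 ≤
      3 * A ^ 2 * (4 * N * ω ^ 2 * tent c r (t s) + 9 * ε ^ 2 * N + e s ^ 2) := by
    intro s
    have hz : ‖ζ ^ s‖ = 1 := by rw [norm_pow, hζ.norm'_eq_one hN.ne', one_pow]
    rw [norm_aeval_inv hz]
    set z := ζ ^ s
    set τ := t s
    set w := tent c r τ with hw
    have hw0 : 0 ≤ w := tent_nonneg _ _ _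
    have hw1 : w ≤ 1 := tent_le_one c hr τ
    have h1 : ‖W s - expSum a lam τ * pol h N z‖ ≤ ε * sN := by
      simp only [W, wpol_expSum, expSum, sum_mul, ← sum_sub_distrib]
      refine (norm_sum_le _ _).trans ?_
      calc ∑ m, ‖a m * pol h N (z * exp (I * (lam m / N : ℝ))) -
              a m * exp (I * (lam m * τ : ℝ)) * pol h N z‖
          ≤ ∑ m, ‖a m‖ * (ξ * sN) := sum_le_sum fun m _ => by
            rw [show a m * pol h N (z * exp (I * (lam m / N : ℝ))) -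
                a m * exp (I * (lam m * τ : ℝ)) * pol h N z =
              a m * (pol h N (z * exp (I * (lam m / N : ℝ))) -
                pol h N z * exp (I * (lam m * τ : ℝ))) by ring, norm_mul]
            exact mul_le_mul_of_nonneg_left (hwave s m) (norm_nonneg _)
        _ = ξ * (∑ m, ‖a m‖) * sN := by rw [← sum_mul]; ring
        _ ≤ ε * sN := mul_le_mul_of_nonneg_right
            (le_trans (mul_le_mul_of_nonneg_left (le_add_of_nonneg_right zero_le_one) hξ0) hξ) hs0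
    have h2 : ‖expSum a lam τ‖ ≤ w + ε := by
      have := norm_le_norm_add_norm_sub' (expSum a lam τ) (w : ℂ)
      rw [Complex.norm_real, Real.norm_of_nonneg hw0, norm_sub_rev] at this
      linarith [happ τ]
    have h3 : ‖T s‖ ≤ w * (2 * sN) + 3 * ε * sN + e s := by
      have a1 := norm_le_norm_add_norm_sub' (T s) (W s)
      have a2 := norm_le_norm_add_norm_sub' (W s) (expSum a lam τ * pol h N z)
      rw [norm_mul] at a2
      have a3 := mul_le_mul h2 (hPz s) (norm_nonneg _) (by linarith)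
      simp only [e]
      linarith
    have hAw : ‖aeval z p‖ * w ≤ A * ω * w := by
      rcases hw0.eq_or_lt with h0 | h0
      · rw [← h0]; simp
      · exact mul_le_mul_of_nonneg_right (hp' s h0) hw0
    have he0 : 0 ≤ e s := norm_nonneg _
    have hes : 0 ≤ 3 * ε * sN + e s := by positivity
    have hV : ‖aeval z p‖ * ‖T s‖ ≤ A * (ω * w * (2 * sN) + 3 * ε * sN + e s) := by
      refine (mul_le_mul_of_nonneg_left h3 (norm_nonneg _)).trans ?_
      have b1 := mul_le_mul_of_nonneg_right hAw (show 0 ≤ 2 * sN by linarith)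
      have b2 := mul_le_mul_of_nonneg_right (hp s) hes
      linarith
    rw [← mul_pow]
    refine (pow_le_pow_left₀ (by positivity) hV 2).trans ?_
    rw [mul_pow]
    calc A ^ 2 * (ω * w * (2 * sN) + 3 * ε * sN + e s) ^ 2
        ≤ A ^ 2 * (3 * ((ω * w * (2 * sN)) ^ 2 + (3 * ε * sN) ^ 2 + e s ^ 2)) := by
          refine mul_le_mul_of_nonneg_left ?_ (sq_nonneg A)
          nlinarith [sq_nonneg (ω * w * (2 * sN) - 3 * ε * sN), sq_nonneg (ω * w * (2 * sN) - e s),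
            sq_nonneg (3 * ε * sN - e s)]
      _ ≤ 3 * A ^ 2 * (4 * N * ω ^ 2 * w + 9 * ε ^ 2 * N + e s ^ 2) := by
          rw [show (ω * w * (2 * sN)) ^ 2 = 4 * N * ω ^ 2 * w ^ 2 by rw [← hs]; ring,
            show (3 * ε * sN) ^ 2 = 9 * ε ^ 2 * N by rw [← hs]; ring]
          have : w ^ 2 ≤ w := by nlinarith
          nlinarith [mul_le_mul_of_nonneg_left this (show 0 ≤ 4 * A ^ 2 * N * ω ^ 2 by positivity)]
  refine (sum_le_sum fun s _ => hpt s).trans ?_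
  rw [← mul_sum, sum_add_distrib, sum_add_distrib, ← mul_sum, sum_const, card_range, nsmul_eq_mul]
  refine mul_le_mul_of_nonneg_left ?_ (by positivity)
  linarith

/-- The periodised tent is `1 / r`-Lipschitz. -/
theorem tent_lipschitz (c : ℝ) {r : ℝ} (hr : 0 < r) (x y : ℝ) :
    |tent c r x - tent c r y| ≤ |x - y| / r := by
  simp only [tent]
  rw [max_comm 0, max_comm 0]
  refine (abs_max_sub_max_le_abs _ _ _).trans ?_
  rw [sub_sub_sub_cancel_left, ← sub_div, abs_div, abs_of_pos hr]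
  refine div_le_div_of_nonneg_right ((abs_norm_sub_norm_le _ _).trans ?_) hr.le
  rw [← AddCircle.coe_sub, show y - c - (x - c) = y - x by ring, abs_sub_comm]
  exact QuotientAddGroup.norm_mk_le_norm.trans (le_of_eq (Real.norm_eq_abs _))

end Vale.Agent.P110.Delay
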